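import Vale.Agent.P267F.Stmt
import Vale.Agent.P267F.Final

open Vale.Agent.P267F

theorem Vale.Agent.P267R.oldSurfaces
    (h : ∀ (Y : Type) [TopologicalSpace Y] [ChartedSpace C2 Y], IsSurface Y →
      PoincareDuality Y ∧ RiemannRoch Y)
    (X : Type) [TopologicalSpace X] [ChartedSpace C2 X] (hX : IsSurface X) (h7 : IsClassVII X) :
    HasCurves X ∧ (DOT → IsMinimal X → 0 < b2 X → HasGSS X) := by
  have k := Vale.Agent.P267.final_curves hX h7 fun Y _ _ hY _ _ => h Y hY
  exact ⟨k, fun hD hm hb => hD X hX h7 hm hb k⟩
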