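import Vale.Agent.P267F.Stmt
import Vale.Agent.P267F.Final

open Vale.Agent.P267F

theorem Vale.Agent.P267R.oldTheorem
    (hP : ∀ (Y : Type) [TopologicalSpace Y] [ChartedSpace C2 Y], IsSurface Y → PoincareDuality Y)
    (hR : ∀ (Y : Type) [TopologicalSpace Y] [ChartedSpace C2 Y], IsSurface Y → RiemannRoch Y)
    (hD : DOT) (X : Type) [TopologicalSpace X] [ChartedSpace C2 X] (hX : IsSurface X)
    (h7 : IsClassVII X) (hm : IsMinimal X) (hb : 0 < b2 X) : HasGSS X :=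
  hD X hX h7 hm hb (Vale.Agent.P267.final_curves hX h7 fun Y _ _ hY _ _ => ⟨hP Y hY, hR Y hY⟩)
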