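import Vale.Agent.P267F.Stmt
import Vale.Agent.P267F.Final

open scoped Manifold ContDiff
open Vale.Agent.P267F

theorem Vale.Agent.P267R.oldUnram
    (X : Type) [TopologicalSpace X] [ChartedSpace C2 X] (hX : IsSurface X) (h7 : IsClassVII X)
    (h : ∀ (Y : Type) [TopologicalSpace Y] [ChartedSpace C2 Y], IsSurface Y →
      ∀ w : Y → X, IsLocalDiffeomorph 𝓘(ℂ, C2) 𝓘(ℂ, C2) ω w →
        PoincareDuality Y ∧ RiemannRoch Y) : HasCurves X :=
  Vale.Agent.P267.final_curves hX h7 h
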