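import Vale.Agent.P267R.Stmt

/-! Intersection numbers, minimal surfaces, global spherical shells. -/

open scoped Manifold ContDiff Topology
open Filter

noncomputable section

namespace Vale.Agent.P267R

/-- The oriented real basis of affine space. -/
def bs : Fin 4 → C2 :=
  ![Pi.single 0 1, Pi.single 0 Complex.I, Pi.single 1 1, Pi.single 1 Complex.I]

/-- The product of two two-forms, given by their coefficients, on the oriented basis. -/
def wedge (A B : Fin 4 → Fin 4 → ℂ) : ℂ :=
  A 0 1 * B 2 3 - A 0 2 * B 1 3 + A 0 3 * B 1 2 + A 1 2 * B 0 3 - A 1 3 * B 0 2 + A 2 3 * B 0 1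

section Bundles
variable {X : Type} [TopologicalSpace X] [ChartedSpace C2 X]

/-- A holomorphic line bundle: the transition functions `u p / u q` are holomorphic. -/
def IsBundle (u : X → X → ℂ) : Prop :=
  ∀ p, ∀ᶠ q in 𝓝 p, u p q ≠ 0 ∧ HolAt (u p / u q) q

/-- The differential of a function at `x`, in the chart at `x`. -/
def dAt (f : X → ℂ) (x : X) : C2 →L[ℝ] ℂ :=
  fderiv ℝ (f ∘ (chartAt C2 x).symm) (chartAt C2 x x)

/-- A holomorphic chart. -/
def HolChart (P : OpenPartialHomeomorph X C2) : Prop :=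
  ∀ p ∈ P.source, ∀ f, HolAt f p ↔ AnalyticAt ℂ (f ∘ P.symm) (P p)

/-- A connection on `u`: `θ p` is the connection form in the frame chosen near `p`. -/
def IsConnection (u : X → X → ℂ) (θ : X → X → C2 →L[ℝ] ℂ) : Prop :=
  (∀ p v, ∀ᶠ z in 𝓝 (chartAt C2 p p),
    ContDiffAt ℝ ∞ (fun y => inChart (chartAt C2 p) (θ p) y v) z) ∧
  ∀ p, ∀ᶠ q in 𝓝 p, ∀ᶠ x in 𝓝 q, θ p x - θ q x = ((u p / u q) x)⁻¹ • dAt (u p / u q) x

/-- The coefficients of the curvature form in the chart `P`. -/
def curv (P : OpenPartialHomeomorph X C2) (θ : X → X → C2 →L[ℝ] ℂ) (z : C2) (a b : Fin 4) : ℂ :=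
  extD (inChart P (θ (P.symm z))) z (bs a) (bs b)

/-- The intersection number of `u` and `v` is `d`: the integral of the product of the first Chern
forms, computed with a partition of unity subordinate to holomorphic charts, is `d`. -/
def Inter (u v : X → X → ℂ) (d : ℤ) : Prop :=
  ∀ (θ θ' : X → X → C2 →L[ℝ] ℂ) (l : ℕ) (P : Fin l → OpenPartialHomeomorph X C2)
    (ψ : Fin l → X → ℝ), IsConnection u θ → IsConnection v θ' → (∀ a, HolChart (P a)) →
    (∀ a, Continuous (ψ a)) → (∀ a, tsupport (ψ a) ⊆ (P a).source) → (∀ x, ∑ a, ψ a x = 1) →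
    -(4 * Real.pi ^ 2 : ℂ)⁻¹ * ∑ a, ∫ z in (P a).target,
      (ψ a ((P a).symm z) : ℂ) * wedge (curv (P a) θ z) (curv (P a) θ' z) = d

/-- A smooth rational curve of self-intersection `-1`: a rational curve that is the zero set of a
holomorphic section, vanishing to first order, of a line bundle of self-intersection `-1`. -/
def IsExceptional (C : Set X) : Prop :=
  IsRationalCurve C ∧ ∃ (u : X → X → ℂ) (s : X → ℂ), IsBundle u ∧
    (∀ p, HolAt (u p * s) p) ∧ (∀ p, s p = 0 ↔ p ∈ C) ∧ (∀ p ∈ C, dAt (u p * s) p ≠ 0) ∧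
    Inter u u (-1)

end Bundles

section Surface
variable (X : Type) [TopologicalSpace X] [ChartedSpace C2 X]

/-- Minimal surfaces. -/
def IsMinimal : Prop := ∀ C : Set X, ¬ IsExceptional C

/-- A global spherical shell: an open set, biholomorphic to a neighbourhood of the unit sphere in
the punctured plane, with connected complement. -/
def HasGSS : Prop :=
  ∃ φ : OpenPartialHomeomorph X C2, HolChart φ ∧ {z : C2 | ∑ j, ‖z j‖ ^ 2 = 1} ⊆ φ.target ∧
    (0 : C2) ∉ φ.target ∧ IsConnected φ.sourceᶜ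

end Surface

/-- Dloussky, Oeljeklaus, Toma 2003. -/
def DOT : Prop :=
  ∀ (X : Type) [TopologicalSpace X] [ChartedSpace C2 X], IsSurface X → IsClassVII X →
    IsMinimal X → 0 < b2 X → HasCurves X → HasGSS X

end Vale.Agent.P267R
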